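import Mathlib
import Vale.Agent.P260.H493.Defs
import Vale.Agent.P260.H493.Spec

/-!
# P260 climb, M5: lifting in degrees 0 and 1
-/

namespace Vale.Agent.P260.H11

open Vale.Agent.P260.H493

section Basic

variable {k Γ : Type} [Field k] [Group Γ] {ψ : Γ →* Multiplicative ℤ}

lemma deg_mul (a b : Γ) : deg ψ (a * b) = deg ψ a + deg ψ b := by
  simp [deg]

lemma deg_one : deg ψ (1 : Γ) = 0 := by
  simp [deg]

lemma deg_pow (a : Γ) (n : ℕ) : deg ψ (a ^ n) = n * deg ψ a := by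
  simp [deg]

lemma ge_zero {ι : Type} (c : ℤ) : Ge ψ c (0 : ι → MonoidAlgebra k Γ) := by
  intro i g h
  simp at h

lemma ge_add {ι : Type} {c : ℤ} {v w : ι → MonoidAlgebra k Γ} (hv : Ge ψ c v) (hw : Ge ψ c w) :
    Ge ψ c (v + w) := by
  intro i g h
  by_cases h1 : (v i).coeff g = 0
  · apply hw i g
    intro h2
    apply h
    simp [h1, h2]
  · exact hv i g h1

lemma ge_mono {ι : Type} {c c' : ℤ} {v : ι → MonoidAlgebra k Γ} (hv : Ge ψ c v) (h : c' ≤ c) :
    Ge ψ c' v := fun i g hg => h.trans (hv i g hg)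

lemma ge_sum {ι α : Type} {c : ℤ} (s : Finset α) (v : α → ι → MonoidAlgebra k Γ)
    (h : ∀ a ∈ s, Ge ψ c (v a)) : Ge ψ c (∑ a ∈ s, v a) := by
  classical
  induction s using Finset.induction_on with
  | empty => simpa using ge_zero c
  | insert a s ha ih =>
    rw [Finset.sum_insert ha]
    exact ge_add (h a (by simp)) (ih fun b hb => h b (by simp [hb]))

lemma ge_single_smul {ι : Type} {c : ℤ} {v : ι → MonoidAlgebra k Γ} (hv : Ge ψ c v) (g : Γ)
    (r : k) : Ge ψ (c + deg ψ g) (MonoidAlgebra.single g r • v) := by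
  intro i x hx
  simp only [Pi.smul_apply, smul_eq_mul, MonoidAlgebra.coeff_single_mul_apply] at hx
  have h1 : (v i).coeff (g⁻¹ * x) ≠ 0 := right_ne_zero_of_mul hx
  have h2 := hv i _ h1
  have h3 : deg ψ x = deg ψ g + deg ψ (g⁻¹ * x) := by
    rw [← deg_mul]; simp
  omega

/-- an element of the group algebra of degree at least `a` -/
lemma ge_smul {ι : Type} {a c : ℤ} {v : ι → MonoidAlgebra k Γ} (hv : Ge ψ c v)
    (x : MonoidAlgebra k Γ) (hx : ∀ g, x.coeff g ≠ 0 → a ≤ deg ψ g) : Ge ψ (a + c) (x • v) := by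
  classical
  have h1 : x • v = ∑ g ∈ x.coeff.support, MonoidAlgebra.single g (x.coeff g) • v := by
    conv_lhs => rw [← MonoidAlgebra.sum_coeff_single x]
    rw [Finsupp.sum, Finset.sum_smul]
  rw [h1]
  apply ge_sum
  intro g hg
  have h2 := hx g (by simpa using hg)
  exact ge_mono (ge_single_smul hv g _) (by omega)

lemma exists_ge {ι : Type} [Finite ι] (ψ : Γ →* Multiplicative ℤ) (v : ι → MonoidAlgebra k Γ) :
    ∃ c, Ge ψ c v := by
  classical
  cases nonempty_fintype ι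
  let s : Finset ℤ := Finset.univ.biUnion fun i : ι => (v i).coeff.support.image (deg ψ)
  obtain ⟨c, hc⟩ := s.bddBelow
  refine ⟨c, fun i g hg => hc ?_⟩
  simp only [s, Finset.coe_biUnion, Set.mem_iUnion, Finset.coe_image]
  exact ⟨i, by simp, g, by simpa using hg, rfl⟩

lemma shift_of_basis {ι κ : Type} [Fintype ι] [DecidableEq ι] {C : ℤ}
    (T : (ι → MonoidAlgebra k Γ) →ₗ[MonoidAlgebra k Γ] (κ → MonoidAlgebra k Γ))
    (h : ∀ j, Ge ψ C (T (Pi.single j 1))) : Shift ψ C T := by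
  intro c v hv
  have h1 : T v = ∑ j, v j • T (Pi.single j 1) := by
    conv_lhs => rw [pi_eq_sum_univ' v]
    rw [map_sum]
    refine Finset.sum_congr rfl fun j _ => ?_
    rw [map_smul]
  rw [h1]
  apply ge_sum
  intro j _
  exact ge_smul (h j) (v j) (hv j)

lemma single_one_smul {ι : Type} (r : k) (v : ι → MonoidAlgebra k Γ) :
    MonoidAlgebra.single (1 : Γ) r • v = r • v := by
  ext1 i
  simp only [Pi.smul_apply, smul_eq_mul]
  ext x
  simp

/-- the linear map with prescribed values on the basis -/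
noncomputable def mk {ι M : Type} [Fintype ι] [AddCommMonoid M] [Module (MonoidAlgebra k Γ) M]
    (f : ι → M) : (ι → MonoidAlgebra k Γ) →ₗ[MonoidAlgebra k Γ] M where
  toFun v := ∑ j, v j • f j
  map_add' v w := by simp [add_smul, Finset.sum_add_distrib]
  map_smul' a v := by simp [Finset.smul_sum, mul_smul]

@[simp] lemma mk_single {ι M : Type} [Fintype ι] [DecidableEq ι] [AddCommMonoid M]
    [Module (MonoidAlgebra k Γ) M] (f : ι → M) (j : ι) :
    mk (k := k) (Γ := Γ) f (Pi.single j 1) = f j := by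
  change ∑ i, (Pi.single j 1 : ι → MonoidAlgebra k Γ) i • f i = f j
  rw [Finset.sum_eq_single j]
  · simp
  · intro i _ hi
    simp [hi]
  · simp

lemma ext_basis {ι M : Type} [Fintype ι] [DecidableEq ι] [AddCommMonoid M]
    [Module (MonoidAlgebra k Γ) M] {T T' : (ι → MonoidAlgebra k Γ) →ₗ[MonoidAlgebra k Γ] M}
    (h : ∀ j, T (Pi.single j 1) = T' (Pi.single j 1)) : T = T' := by
  apply LinearMap.ext
  intro v
  rw [pi_eq_sum_univ' v, map_sum, map_sum]
  exact Finset.sum_congr rfl fun j _ => by rw [map_smul, map_smul, h j]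

/-- multiplication of all coordinates by `s` on the right -/
noncomputable def rmul {ι : Type} (s : MonoidAlgebra k Γ) :
    (ι → MonoidAlgebra k Γ) →ₗ[MonoidAlgebra k Γ] (ι → MonoidAlgebra k Γ) where
  toFun v := fun j => v j * s
  map_add' v w := by ext1 j; simp [add_mul]
  map_smul' a v := by ext1 j; simp [mul_assoc]

lemma ge_rmul_single {ι : Type} {c : ℤ} {v : ι → MonoidAlgebra k Γ} (hv : Ge ψ c v) (g : Γ)
    (r : k) : Ge ψ (c + deg ψ g) (rmul (MonoidAlgebra.single g r) v) := by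
  intro i x hx
  change (v i * MonoidAlgebra.single g r).coeff x ≠ 0 at hx
  rw [MonoidAlgebra.coeff_mul_single_apply] at hx
  have h1 : (v i).coeff (x * g⁻¹) ≠ 0 := left_ne_zero_of_mul hx
  have h2 := hv i _ h1
  have h3 : deg ψ x = deg ψ (x * g⁻¹) + deg ψ g := by
    rw [← deg_mul]; simp
  omega

end Basic

section Om

variable {k Γ : Type} [Field k] [Group Γ] (R : Res3 k Γ)

lemma om_mul (g h : Γ) : R.ω (g * h) = R.ω g * R.ω h := by
  obtain ⟨v, hv⟩ := R.eps_surj 1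
  have h1 := R.eps_smul (g * h) v
  have h2 : (MonoidAlgebra.single (g * h) (1 : k)) =
      MonoidAlgebra.single g 1 * MonoidAlgebra.single h 1 := by
    rw [MonoidAlgebra.single_mul_single, one_mul]
  rw [h2, mul_smul, R.eps_smul, R.eps_smul, hv] at h1
  simpa using h1.symm

lemma om_one : R.ω 1 = 1 := by
  obtain ⟨v, hv⟩ := R.eps_surj 1
  have h1 := R.eps_smul 1 v
  rw [← MonoidAlgebra.one_def, one_smul, hv] at h1
  simpa using h1.symm

lemma om_ne (g : Γ) : R.ω g ≠ 0 := by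
  intro h
  have h1 := om_mul R g g⁻¹
  rw [mul_inv_cancel, om_one, h, zero_mul] at h1
  exact one_ne_zero h1

lemma om_pow (g : Γ) (n : ℕ) : R.ω (g ^ n) = R.ω g ^ n := by
  induction n with
  | zero => simp [om_one]
  | succ n ih => rw [pow_succ, om_mul, ih, pow_succ]

lemma eps_single_smul (g : Γ) (r : k) (v : R.ι0 → MonoidAlgebra k Γ) :
    R.ε (MonoidAlgebra.single g r • v) = r * (R.ω g * R.ε v) := by
  have h1 : MonoidAlgebra.single g r • v = r • (MonoidAlgebra.single g (1 : k) • v) := by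
    rw [← smul_assoc]
    simp
  rw [h1, map_smul, R.eps_smul, smul_eq_mul]

/-- the element `y / ω(y)` -/
noncomputable def hat (y : Γ) : MonoidAlgebra k Γ := MonoidAlgebra.single y (R.ω y)⁻¹

lemma eps_hat (y : Γ) (v : R.ι0 → MonoidAlgebra k Γ) : R.ε (hat R y • v) = R.ε v := by
  rw [hat, eps_single_smul, inv_mul_cancel_left₀ (om_ne R y)]

lemma hat_mul (x y : Γ) : hat R (x * y) = hat R x * hat R y := by
  simp [hat, MonoidAlgebra.single_mul_single, om_mul, mul_comm]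

/-- values of `1 - T_y` on basis vectors are in the kernel of the augmentation -/
lemma exists_h0 (y : Γ) :
    ∃ h0 : (R.ι0 → MonoidAlgebra k Γ) →ₗ[MonoidAlgebra k Γ] (R.ι1 → MonoidAlgebra k Γ),
      LinearMap.id - R.d0 ∘ₗ h0 = rmul (hat R y) := by
  have h1 : ∀ j : R.ι0, ∃ w, R.d0 w = Pi.single j 1 - rmul (hat R y) (Pi.single j 1) := by
    intro j
    rw [← R.ex0, map_sub]
    have h2 : rmul (hat R y) (Pi.single j 1 : R.ι0 → MonoidAlgebra k Γ) =
        hat R y • (Pi.single j 1 : R.ι0 → MonoidAlgebra k Γ) := by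
      ext1 i
      change (Pi.single j 1 : R.ι0 → MonoidAlgebra k Γ) i * hat R y =
        hat R y * (Pi.single j 1 : R.ι0 → MonoidAlgebra k Γ) i
      by_cases hij : i = j
      · subst hij; simp
      · simp [hij]
    rw [h2, eps_hat, sub_self]
  choose w hw using h1
  refine ⟨mk w, ext_basis fun j => ?_⟩
  simp [hw]

end Om

theorem lowA : StmtLowA := by
  intro k Γ _ _ ψ R hψ C
  obtain ⟨g, hg⟩ := hψ
  obtain ⟨n, hn⟩ : ∃ n : ℕ, C ≤ n := ⟨C.toNat, Int.self_le_toNat C⟩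
  obtain ⟨h0, h1⟩ := exists_h0 R (g ^ n)
  refine ⟨h0, ?_⟩
  rw [h1]
  intro c v hv
  have h2 := ge_rmul_single hv (g ^ n) (R.ω (g ^ n))⁻¹
  refine ge_mono h2 ?_
  rw [deg_pow]
  nlinarith

section B

variable {k Γ : Type} [Field k] [Group Γ] (R : Res3 k Γ) (ψ : Γ →* Multiplicative ℤ)

/-- the vectors `d₀ w` with `w` of degree at least `C` -/
def W (C : ℤ) : Submodule k (R.ι0 → MonoidAlgebra k Γ) where
  carrier := {u | ∃ w, Ge ψ C w ∧ R.d0 w = u}
  add_mem' := by
    rintro _ _ ⟨w, hw, rfl⟩ ⟨w', hw', rfl⟩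
    exact ⟨w + w', ge_add hw hw', map_add _ _ _⟩
  zero_mem' := ⟨0, ge_zero C, map_zero _⟩
  smul_mem' := by
    rintro r _ ⟨w, hw, rfl⟩
    refine ⟨MonoidAlgebra.single (1 : Γ) r • w, ?_, ?_⟩
    · simpa [deg_one] using ge_single_smul hw 1 r
    · rw [map_smul, single_one_smul]

variable {R ψ}

lemma W_mono {C C' : ℤ} (h : C' ≤ C) {u : R.ι0 → MonoidAlgebra k Γ} (hu : u ∈ W R ψ C) :
    u ∈ W R ψ C' := by
  obtain ⟨w, hw, h1⟩ := hu
  exact ⟨w, ge_mono hw h, h1⟩

lemma W_smul {C : ℤ} {u : R.ι0 → MonoidAlgebra k Γ} (hu : u ∈ W R ψ C) (g : Γ) (r : k) :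
    MonoidAlgebra.single g r • u ∈ W R ψ (C + deg ψ g) := by
  obtain ⟨w, hw, rfl⟩ := hu
  exact ⟨_, ge_single_smul hw g r, map_smul _ _ _⟩

/-- the difference of hats is a boundary of high degree along a path -/
lemma path_mem {S : Finset Γ} {B C : ℤ}
    (hB : ∀ s ∈ S, ∀ j : R.ι0, (hat R s - 1) • (Pi.single j 1 : R.ι0 → MonoidAlgebra k Γ) ∈
      W R ψ B) {x y : Γ} (h : Conn S (fun y => C ≤ deg ψ y) x y) (j : R.ι0) :
    (hat R y - hat R x) • (Pi.single j 1 : R.ι0 → MonoidAlgebra k Γ) ∈ W R ψ (B + C) := by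
  obtain ⟨h1, hx⟩ := h
  have key : C ≤ deg ψ y ∧
      (hat R y - hat R x) • (Pi.single j 1 : R.ι0 → MonoidAlgebra k Γ) ∈ W R ψ (B + C) := by
    induction h1 with
    | refl => exact ⟨hx, by rw [sub_self, zero_smul]; exact Submodule.zero_mem _⟩
    | @tail b c hab hbc ih =>
      obtain ⟨hb, hm⟩ := ih
      obtain ⟨⟨s, hs, rfl⟩, hc⟩ := hbc
      refine ⟨hc, ?_⟩
      have h2 : hat R (b * s) - hat R x = (hat R b * (hat R s - 1)) + (hat R b - hat R x) := by
        rw [hat_mul]; noncomm_ring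
      rw [h2, add_smul]
      refine Submodule.add_mem _ ?_ hm
      rw [mul_smul]
      exact W_mono (by omega) (W_smul (hB s hs j) b _)
  exact key.2

lemma exists_B (S : Finset Γ) :
    ∃ B : ℤ, ∀ s ∈ S, ∀ j : R.ι0, (hat R s - 1) • (Pi.single j 1 : R.ι0 → MonoidAlgebra k Γ) ∈
      W R ψ B := by
  classical
  have h1 : ∀ p : S × R.ι0, ∃ B : ℤ, (hat R (p.1 : Γ) - 1) •
      (Pi.single p.2 1 : R.ι0 → MonoidAlgebra k Γ) ∈ W R ψ B := by
    intro p
    have h2 : ∃ w, R.d0 w = (hat R (p.1 : Γ) - 1) •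
      (Pi.single p.2 1 : R.ι0 → MonoidAlgebra k Γ) := by
      rw [← R.ex0, sub_smul, one_smul, map_sub, eps_hat, sub_self]
    obtain ⟨w, hw⟩ := h2
    obtain ⟨c, hc⟩ := exists_ge ψ w
    exact ⟨c, w, hc, hw⟩
  choose B hB using h1
  obtain ⟨b, hb⟩ := (Finset.univ.image B).bddBelow
  refine ⟨b, fun s hs j => W_mono (hb ?_) (hB (⟨s, hs⟩, j))⟩
  simp

/-- `v` is in the kernel of the augmentation, and its translates by high powers of `h` are
boundaries of vectors of high degree -/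
def HighB (R : Res3 k Γ) (ψ : Γ →* Multiplicative ℤ) (h : Γ) (v : R.ι0 → MonoidAlgebra k Γ) :
    Prop :=
  R.ε v = 0 ∧ ∀ C : ℤ, ∃ N : ℕ, ∀ n ≥ N, rmul (hat R (h ^ n)) v ∈ W R ψ C

lemma HighB.add {h : Γ} {v w : R.ι0 → MonoidAlgebra k Γ} (hv : HighB R ψ h v)
    (hw : HighB R ψ h w) : HighB R ψ h (v + w) := by
  refine ⟨by rw [map_add, hv.1, hw.1, add_zero], fun C => ?_⟩
  obtain ⟨N, hN⟩ := hv.2 C
  obtain ⟨N', hN'⟩ := hw.2 C
  refine ⟨max N N', fun n hn => ?_⟩
  rw [map_add]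
  exact Submodule.add_mem _ (hN n (le_trans (le_max_left _ _) hn))
    (hN' n (le_trans (le_max_right _ _) hn))

lemma HighB.zero {h : Γ} : HighB R ψ h 0 :=
  ⟨map_zero _, fun _ => ⟨0, fun _ _ => by rw [map_zero]; exact Submodule.zero_mem _⟩⟩

lemma HighB.smul {h : Γ} {v : R.ι0 → MonoidAlgebra k Γ} (hv : HighB R ψ h v) (r : k) :
    HighB R ψ h (MonoidAlgebra.single (1 : Γ) r • v) := by
  refine ⟨by rw [eps_single_smul, hv.1]; simp, fun C => ?_⟩
  obtain ⟨N, hN⟩ := hv.2 C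
  refine ⟨N, fun n hn => ?_⟩
  rw [map_smul]
  simpa [deg_one] using W_smul (hN n hn) 1 r

lemma highB_hat {S : Finset Γ} {h : Γ}
    (hh : ∀ (g : Γ) (C : ℝ), ∃ N : ℕ, ∀ n ≥ N,
      Conn S (fun y => C ≤ (deg ψ y : ℝ)) (h ^ n) (g * h ^ n)) (g : Γ) (j : R.ι0) :
    HighB R ψ h ((hat R g - 1) • (Pi.single j 1 : R.ι0 → MonoidAlgebra k Γ)) := by
  refine ⟨by rw [sub_smul, one_smul, map_sub, eps_hat, sub_self], fun C => ?_⟩
  obtain ⟨B, hB⟩ := exists_B (R := R) (ψ := ψ) S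
  obtain ⟨N, hN⟩ := hh g ((C - B : ℤ) : ℝ)
  refine ⟨N, fun n hn => ?_⟩
  have h1 : Conn S (fun y => C - B ≤ deg ψ y) (h ^ n) (g * h ^ n) := by
    have := hN n hn
    simpa only [Int.cast_le] using this
  have h2 := path_mem hB h1 j
  have h3 : rmul (hat R (h ^ n)) ((hat R g - 1) • (Pi.single j 1 : R.ι0 → MonoidAlgebra k Γ)) =
      (hat R (g * h ^ n) - hat R (h ^ n)) • (Pi.single j 1 : R.ι0 → MonoidAlgebra k Γ) := by
    ext1 i
    change ((hat R g - 1) * (Pi.single j 1 : R.ι0 → MonoidAlgebra k Γ) i) * hat R (h ^ n) =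
      (hat R (g * h ^ n) - hat R (h ^ n)) * (Pi.single j 1 : R.ι0 → MonoidAlgebra k Γ) i
    by_cases hij : i = j
    · subst hij
      rw [hat_mul]
      simp [sub_mul]
    · simp [hij]
  rw [h3]
  exact W_mono (by omega) h2

/-- the vector with constant entries `b j` -/
noncomputable def cst {ι : Type} (b : ι → k) : ι → MonoidAlgebra k Γ :=
  fun j => MonoidAlgebra.single 1 (b j)

lemma cst_add {ι : Type} (b b' : ι → k) :
    cst (Γ := Γ) (b + b') = cst b + cst b' := by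
  ext1 j
  simp [cst, MonoidAlgebra.single_add]

lemma cst_zero {ι : Type} : cst (Γ := Γ) (0 : ι → k) = 0 := by
  ext1 j
  simp [cst]

lemma highB_cst {h : Γ} (hpos : 0 < deg ψ h) (b : R.ι0 → k) (hb : R.ε (cst b) = 0) :
    HighB R ψ h (cst b) := by
  refine ⟨hb, fun C => ?_⟩
  obtain ⟨u, hu⟩ := (R.ex0 _).1 hb
  obtain ⟨c, hc⟩ := exists_ge ψ u
  refine ⟨(C - c).toNat, fun n hn => ?_⟩
  have h1 : rmul (hat R (h ^ n)) (cst b : R.ι0 → MonoidAlgebra k Γ) =
      hat R (h ^ n) • (cst b : R.ι0 → MonoidAlgebra k Γ) := by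
    ext1 i
    change MonoidAlgebra.single 1 (b i) * hat R (h ^ n) = hat R (h ^ n) *
      MonoidAlgebra.single 1 (b i)
    simp [hat, MonoidAlgebra.single_mul_single, mul_comm]
  rw [h1, ← hu, ← map_smul]
  refine ⟨_, ge_mono (ge_single_smul hc (h ^ n) _) ?_, rfl⟩
  rw [deg_pow]
  have h2 : C - c ≤ n := (Int.self_le_toNat _).trans (by exact_mod_cast hn)
  nlinarith

lemma exists_cst {S : Finset Γ} {h : Γ}
    (hh : ∀ (g : Γ) (C : ℝ), ∃ N : ℕ, ∀ n ≥ N,
      Conn S (fun y => C ≤ (deg ψ y : ℝ)) (h ^ n) (g * h ^ n)) (v : R.ι0 → MonoidAlgebra k Γ) :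
    ∃ b : R.ι0 → k, HighB R ψ h (v - cst b) := by
  have hadd : ∀ v w : R.ι0 → MonoidAlgebra k Γ, (∃ b : R.ι0 → k, HighB R ψ h (v - cst b)) →
      (∃ b : R.ι0 → k, HighB R ψ h (w - cst b)) →
      ∃ b : R.ι0 → k, HighB R ψ h (v + w - cst b) := by
    rintro v w ⟨b, hb⟩ ⟨b', hb'⟩
    refine ⟨b + b', ?_⟩
    rw [cst_add, add_sub_add_comm]
    exact hb.add hb'
  have hzero : ∃ b : R.ι0 → k, HighB R ψ h (0 - cst b) :=
    ⟨0, by rw [cst_zero, sub_zero]; exact HighB.zero⟩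
  have hsingle : ∀ (j : R.ι0) (x : MonoidAlgebra k Γ),
      ∃ b : R.ι0 → k, HighB R ψ h (Pi.single j x - cst b) := by
    intro j x
    induction x using MonoidAlgebra.induction_linear with
    | zero => simpa using hzero
    | add x y hx hy =>
      rw [Pi.single_add]
      exact hadd _ _ hx hy
    | single g r =>
      refine ⟨Pi.single j (r * R.ω g), ?_⟩
      have h1 : (Pi.single j (MonoidAlgebra.single g r) : R.ι0 → MonoidAlgebra k Γ) -
          cst (Pi.single j (r * R.ω g)) = MonoidAlgebra.single (1 : Γ) (r * R.ω g) •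
          ((hat R g - 1) • (Pi.single j 1 : R.ι0 → MonoidAlgebra k Γ)) := by
        ext1 i
        by_cases hij : i = j
        · subst hij
          simp only [Pi.sub_apply, Pi.single_eq_same, cst, Pi.smul_apply, smul_eq_mul, mul_one,
            hat, mul_sub, MonoidAlgebra.single_mul_single, one_mul]
          rw [mul_assoc, mul_inv_cancel₀ (om_ne R g), mul_one]
        · simp [hij, cst]
      rw [h1]
      exact (highB_hat hh g j).smul _
  classical
  have h1 : ∀ s : Finset R.ι0, ∃ b : R.ι0 → k,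
      HighB R ψ h ((∑ j ∈ s, Pi.single j (v j)) - cst b) := by
    intro s
    induction s using Finset.induction_on with
    | empty => simpa using hzero
    | insert a s ha ih =>
      rw [Finset.sum_insert ha]
      exact hadd _ _ (hsingle a (v a)) ih
  simpa [Finset.univ_sum_single] using h1 Finset.univ

lemma highB_of_eps {S : Finset Γ} {h : Γ} (hpos : 0 < deg ψ h)
    (hh : ∀ (g : Γ) (C : ℝ), ∃ N : ℕ, ∀ n ≥ N,
      Conn S (fun y => C ≤ (deg ψ y : ℝ)) (h ^ n) (g * h ^ n)) (v : R.ι0 → MonoidAlgebra k Γ)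
    (hv : R.ε v = 0) : HighB R ψ h v := by
  obtain ⟨b, hb⟩ := exists_cst hh v
  have h1 : R.ε (cst b) = 0 := by
    have h2 := hb.1
    rw [map_sub, hv, zero_sub, neg_eq_zero] at h2
    exact h2
  have h3 := hb.add (highB_cst hpos b h1)
  rwa [sub_add_cancel] at h3

end B

theorem lowB : StmtLowB := by
  intro k Γ _ _ ψ R S hUp C
  obtain ⟨h, hpos, hh⟩ := hUp
  have hpos' : 0 < deg ψ h := by
    have h1 : (0 : ℝ) < (deg ψ h : ℝ) := hpos
    exact_mod_cast h1
  have h1 : ∀ l : R.ι1, ∃ N : ℕ, ∀ n ≥ N,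
      rmul (hat R (h ^ n)) (R.d0 (Pi.single l 1)) ∈ W R ψ C := fun l =>
    (highB_of_eps hpos' hh _ ((R.ex0 _).2 ⟨_, rfl⟩)).2 C
  choose N hN using h1
  obtain ⟨M, hM⟩ := (Finset.univ.image N).bddAbove
  let n := max M C.toNat
  have hn : ∀ l, N l ≤ n := fun l => (hM (by simp)).trans (le_max_left _ _)
  have hn' : C ≤ deg ψ (h ^ n) := by
    rw [deg_pow]
    have h2 : C ≤ n := (Int.self_le_toNat _).trans (by exact_mod_cast le_max_right _ _)
    nlinarith
  obtain ⟨h0, h0e⟩ := exists_h0 R (h ^ n)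
  have h2 : ∀ l : R.ι1, ∃ w, Ge ψ C w ∧ R.d0 w = rmul (hat R (h ^ n)) (R.d0 (Pi.single l 1)) :=
    fun l => hN l n (hn l)
  choose w hw hw' using h2
  have h3 : ∀ l : R.ι1, ∃ u, R.d1 u = Pi.single l 1 - h0 (R.d0 (Pi.single l 1)) - w l := by
    intro l
    rw [← R.ex1, map_sub, map_sub, hw', ← h0e]
    simp
  choose u hu using h3
  refine ⟨h0, mk u, ?_, ?_⟩
  · rw [h0e]
    intro c v hv
    exact ge_mono (ge_rmul_single hv (h ^ n) _) (by omega)
  · apply shift_of_basis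
    intro l
    have h4 : Pi.single l 1 - h0 (R.d0 (Pi.single l 1)) -
        (Pi.single l 1 - h0 (R.d0 (Pi.single l 1)) - w l) = w l := by abel
    simp only [LinearMap.sub_apply, LinearMap.id_apply, LinearMap.comp_apply, mk_single, hu]
    rw [h4]
    exact hw l

end Vale.Agent.P260.H11
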